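import Mathlib

namespace Vale.Agent.Lib.P124

open Filter Asymptotics Bornology Topology

variable {X Y : Type*} [NormedAddCommGroup X] [NormedSpace ℝ X]
  [NormedAddCommGroup Y] [NormedSpace ℝ Y]

/-- little-o at infinity, in epsilon form -/
lemma isLittleO_cobounded_iff (g : X → Y) :
    (g =o[cobounded X] (fun x => x)) ↔
      ∀ ε : ℝ, 0 < ε → ∃ R : ℝ, ∀ x : X, R ≤ ‖x‖ → ‖g x‖ ≤ ε * ‖x‖ := by
  rw [isLittleO_iff]
  constructor
  · intro h ε hε
    have h1 := h hε
    rw [Filter.eventually_iff_exists_mem] at h1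
    obtain ⟨s, hs, hs'⟩ := h1
    rw [← isCobounded_def, ← isBounded_compl_iff] at hs
    obtain ⟨R, hR⟩ := hs.exists_norm_le
    refine ⟨R + 1, fun x hx => ?_⟩
    apply hs'
    by_contra hxs
    have := hR x hxs
    linarith
  · intro h ε hε
    obtain ⟨R, hR⟩ := h ε hε
    have : {x : X | R ≤ ‖x‖} ∈ cobounded X := by
      rw [← isCobounded_def, ← isBounded_compl_iff]
      refine (Metric.isBounded_ball (x := (0 : X)) (r := R)).subset ?_
      intro x hx
      simp only [Set.mem_compl_iff, Set.mem_ofPred_eq, not_le] at hx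
      simpa using hx
    exact Filter.mem_of_superset this (fun x hx => hR x hx)


/-- A linear map at sublinear distance (at infinity) from a coarse Lipschitz equivalence of a
Banach space onto a normed space is a linear isomorphism. -/
theorem linear_iso_of_asymptotically_linear [CompleteSpace X]
    (f : X → Y) (T : X →ₗ[ℝ] Y) (c C A : ℝ) (hc : 0 < c)
    (hupper : ∀ x y, ‖f x - f y‖ ≤ C * ‖x - y‖ + A)
    (hlower : ∀ x y, c * ‖x - y‖ - A ≤ ‖f x - f y‖)
    (hdense : ∀ y, ∃ x, ‖f x - y‖ ≤ A)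
    (hT : (fun x => f x - T x) =o[cobounded X] (fun x => x)) :
    ∃ e : X ≃L[ℝ] Y, ∀ x, e x = T x := by
  rw [isLittleO_cobounded_iff] at hT
  have hA : 0 ≤ A := by
    obtain ⟨x, hx⟩ := hdense 0
    exact (norm_nonneg _).trans hx
  set C' : ℝ := max C 0 with hC'
  have hC'0 : 0 ≤ C' := le_max_right _ _
  have hupper' : ∀ x y, ‖f x - f y‖ ≤ C' * ‖x - y‖ + A := fun x y =>
    (hupper x y).trans (by
      have : C * ‖x - y‖ ≤ C' * ‖x - y‖ :=
        mul_le_mul_of_nonneg_right (le_max_left _ _) (norm_nonneg _)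
      linarith)
  set B : ℝ := A + ‖f 0‖ with hB
  have hB0 : 0 ≤ B := by positivity
  -- along a ray: estimates for large multiples
  have hray : ∀ x : X, x ≠ 0 → ∀ ε : ℝ, 0 < ε →
      ‖T x‖ ≤ (C' + 2 * ε) * ‖x‖ ∧ (c - 2 * ε) * ‖x‖ ≤ ‖T x‖ := by
    intro x hx ε hε
    have hxn : 0 < ‖x‖ := norm_pos_iff.mpr hx
    obtain ⟨R, hR⟩ := hT ε hε
    set t : ℝ := max (max (R / ‖x‖) 1) (B / (ε * ‖x‖)) with ht
    have ht1 : 1 ≤ t := (le_max_right _ _).trans (le_max_left _ _)
    have ht0 : 0 < t := lt_of_lt_of_le one_pos ht1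
    have htR : R ≤ ‖t • x‖ := by
      rw [norm_smul, Real.norm_of_nonneg ht0.le]
      have : R / ‖x‖ ≤ t := (le_max_left _ _).trans (le_max_left _ _)
      rwa [div_le_iff₀ hxn] at this
    have htB : B ≤ ε * ‖x‖ * t := by
      have : B / (ε * ‖x‖) ≤ t := le_max_right _ _
      rwa [div_le_iff₀ (by positivity), mul_comm] at this
    have h1 := hR (t • x) htR
    have hnorm : ‖t • x‖ = t * ‖x‖ := by rw [norm_smul, Real.norm_of_nonneg ht0.le]
    have hTt : ‖T (t • x)‖ = t * ‖T x‖ := by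
      rw [map_smul, norm_smul, Real.norm_of_nonneg ht0.le]
    rw [hnorm] at h1
    have h2 := hupper' (t • x) 0
    have h3 := hlower (t • x) 0
    rw [sub_zero, hnorm] at h2 h3
    have h4 : ‖T (t • x)‖ ≤ ‖f (t • x) - T (t • x)‖ + ‖f (t • x) - f 0‖ + ‖f 0‖ := by
      have : T (t • x) = -(f (t • x) - T (t • x)) + (f (t • x) - f 0) + f 0 := by abel
      calc ‖T (t • x)‖ = ‖-(f (t • x) - T (t • x)) + (f (t • x) - f 0) + f 0‖ := by rw [← this]
        _ ≤ ‖-(f (t • x) - T (t • x)) + (f (t • x) - f 0)‖ + ‖f 0‖ := norm_add_le _ _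
        _ ≤ ‖-(f (t • x) - T (t • x))‖ + ‖f (t • x) - f 0‖ + ‖f 0‖ := by
          gcongr; exact norm_add_le _ _
        _ = _ := by rw [norm_neg]
    have h5 : ‖f (t • x) - f 0‖ ≤ ‖f (t • x) - T (t • x)‖ + ‖T (t • x)‖ + ‖f 0‖ := by
      have : f (t • x) - f 0 = (f (t • x) - T (t • x)) + T (t • x) + -f 0 := by abel
      calc ‖f (t • x) - f 0‖ = ‖(f (t • x) - T (t • x)) + T (t • x) + -f 0‖ := by rw [← this]
        _ ≤ ‖(f (t • x) - T (t • x)) + T (t • x)‖ + ‖-f 0‖ := norm_add_le _ _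
        _ ≤ ‖f (t • x) - T (t • x)‖ + ‖T (t • x)‖ + ‖f 0‖ := by
          rw [norm_neg]; gcongr; exact norm_add_le _ _
    rw [hTt] at h4 h5
    constructor
    · have : t * ‖T x‖ ≤ t * ((C' + 2 * ε) * ‖x‖) := by nlinarith
      exact le_of_mul_le_mul_left this ht0
    · have : t * ((c - 2 * ε) * ‖x‖) ≤ t * ‖T x‖ := by nlinarith
      exact le_of_mul_le_mul_left this ht0
  have hTupper : ∀ x, ‖T x‖ ≤ C' * ‖x‖ := by
    intro x
    by_cases hx : x = 0
    · simp [hx]
    · have hxn : 0 < ‖x‖ := norm_pos_iff.mpr hx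
      refine le_of_forall_pos_le_add fun ε hε => ?_
      have h := (hray x hx (ε / (2 * ‖x‖)) (by positivity)).1
      have : 2 * (ε / (2 * ‖x‖)) * ‖x‖ = ε := by field_simp
      nlinarith
  have hTlower : ∀ x, c * ‖x‖ ≤ ‖T x‖ := by
    intro x
    by_cases hx : x = 0
    · simp [hx]
    · have hxn : 0 < ‖x‖ := norm_pos_iff.mpr hx
      refine le_of_forall_pos_le_add fun ε hε => ?_
      have h := (hray x hx (ε / (2 * ‖x‖)) (by positivity)).2
      have : 2 * (ε / (2 * ‖x‖)) * ‖x‖ = ε := by field_simp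
      nlinarith
  -- global sublinear bound
  have hglobal : ∀ ε : ℝ, 0 < ε → ∃ M : ℝ, ∀ x, ‖f x - T x‖ ≤ ε * ‖x‖ + M := by
    intro ε hε
    obtain ⟨R, hR⟩ := hT ε hε
    refine ⟨2 * C' * |R| + B, fun x => ?_⟩
    by_cases hx : R ≤ ‖x‖
    · have := hR x hx
      have h0 : 0 ≤ 2 * C' * |R| + B := by positivity
      linarith
    · have hx' : ‖x‖ ≤ |R| := (not_le.mp hx).le.trans (le_abs_self R)
      have h1 := hupper' x 0
      rw [sub_zero] at h1
      have h2 := hTupper x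
      have h3 : ‖f x - T x‖ ≤ ‖f x - f 0‖ + ‖f 0‖ + ‖T x‖ := by
        have : f x - T x = (f x - f 0) + f 0 + -T x := by abel
        calc ‖f x - T x‖ = ‖(f x - f 0) + f 0 + -T x‖ := by rw [← this]
          _ ≤ ‖(f x - f 0) + f 0‖ + ‖-T x‖ := norm_add_le _ _
          _ ≤ ‖f x - f 0‖ + ‖f 0‖ + ‖T x‖ := by
            rw [norm_neg]; gcongr; exact norm_add_le _ _
      have h4 : C' * ‖x‖ ≤ C' * |R| := mul_le_mul_of_nonneg_left hx' hC'0
      have h5 : 0 ≤ ε * ‖x‖ := by positivity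
      linarith
  -- the continuous linear map
  set Tc : X →L[ℝ] Y := T.mkContinuous C' hTupper with hTc
  have hTc_apply : ∀ x, Tc x = T x := fun x => rfl
  have hanti : AntilipschitzWith (Real.toNNReal (1 / c)) Tc := by
    apply ContinuousLinearMap.antilipschitz_of_bound
    intro x
    rw [Real.coe_toNNReal _ (by positivity), hTc_apply]
    have := hTlower x
    rw [div_mul_eq_mul_div, one_mul, le_div_iff₀ hc]
    linarith
  have hclosed : IsClosed (Set.range Tc) := hanti.isClosed_range Tc.uniformContinuous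
  have hsurj : Function.Surjective T := by
    intro y
    by_contra hy
    have hy' : y ∉ Set.range Tc := fun ⟨x, hx⟩ => hy ⟨x, hx⟩
    have hδ : 0 < Metric.infDist y (Set.range Tc) :=
      (hclosed.notMem_iff_infDist_pos (Set.range_nonempty _)).mp hy'
    set δ := Metric.infDist y (Set.range Tc) with hδ_def
    have hdist : ∀ (t : ℝ), 0 < t → ∀ x : X, t * δ ≤ ‖t • y - T x‖ := by
      intro t ht x
      have h1 : δ ≤ dist y (Tc (t⁻¹ • x)) := Metric.infDist_le_dist_of_mem ⟨_, rfl⟩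
      rw [dist_eq_norm, hTc_apply, map_smul] at h1
      have h2 : t • y - T x = t • (y - t⁻¹ • T x) := by
        rw [smul_sub, smul_smul, mul_inv_cancel₀ ht.ne', one_smul]
      rw [h2, norm_smul, Real.norm_of_nonneg ht.le]
      exact mul_le_mul_of_nonneg_left h1 ht.le
    have hyn : 0 < ‖y‖ := by
      rw [norm_pos_iff]
      rintro rfl
      exact hy ⟨0, map_zero T⟩
    set ε : ℝ := δ * c / (2 * ‖y‖) with hε
    have hε0 : 0 < ε := by positivity
    obtain ⟨M, hM⟩ := hglobal ε hε0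
    -- choose t large
    set K : ℝ := A + M + ε * (2 * A + ‖f 0‖) / c with hK
    set t : ℝ := max 1 (2 * K / δ + 1) with ht
    have ht0 : 0 < t := lt_of_lt_of_le one_pos (le_max_left _ _)
    obtain ⟨x, hx⟩ := hdense (t • y)
    have h1 := hdist t ht0 x
    have h2 := hM x
    have h3 := hlower x 0
    rw [sub_zero] at h3
    have h4 : ‖f x - f 0‖ ≤ A + t * ‖y‖ + ‖f 0‖ := by
      have : f x - f 0 = (f x - t • y) + t • y + -f 0 := by abel
      calc ‖f x - f 0‖ = ‖(f x - t • y) + t • y + -f 0‖ := by rw [← this]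
        _ ≤ ‖(f x - t • y) + t • y‖ + ‖-f 0‖ := norm_add_le _ _
        _ ≤ ‖f x - t • y‖ + ‖t • y‖ + ‖f 0‖ := by
          rw [norm_neg]; gcongr; exact norm_add_le _ _
        _ ≤ A + t * ‖y‖ + ‖f 0‖ := by
          rw [norm_smul, Real.norm_of_nonneg ht0.le]; gcongr
    have h5 : ‖x‖ ≤ (2 * A + t * ‖y‖ + ‖f 0‖) / c := by
      rw [le_div_iff₀ hc]; linarith
    have h6 : ‖t • y - T x‖ ≤ A + ‖f x - T x‖ := by
      have : t • y - T x = -(f x - t • y) + (f x - T x) := by abel
      calc ‖t • y - T x‖ = ‖-(f x - t • y) + (f x - T x)‖ := by rw [← this]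
        _ ≤ ‖-(f x - t • y)‖ + ‖f x - T x‖ := norm_add_le _ _
        _ ≤ A + ‖f x - T x‖ := by rw [norm_neg]; gcongr
    have h7 : ε * ‖x‖ ≤ ε * ((2 * A + t * ‖y‖ + ‖f 0‖) / c) :=
      mul_le_mul_of_nonneg_left h5 hε0.le
    have h8 : ε * ((2 * A + t * ‖y‖ + ‖f 0‖) / c) = ε * (2 * A + ‖f 0‖) / c + t * δ / 2 := by
      rw [hε]; field_simp; ring
    have h9 : t * δ / 2 ≤ K := by rw [hK]; linarith
    have h10 : 2 * K / δ + 1 ≤ t := le_max_right _ _
    have h11 : 2 * K / δ < t := by linarith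
    rw [div_lt_iff₀ hδ] at h11
    linarith
  have hinj : Function.Injective T := by
    rw [← LinearMap.ker_eq_bot, LinearMap.ker_eq_bot']
    intro x hx
    have := hTlower x
    rw [hx, norm_zero] at this
    have h2 : ‖x‖ ≤ 0 := by
      by_contra h
      have h' : 0 < ‖x‖ := not_le.mp h
      nlinarith
    exact norm_le_zero_iff.mp h2
  set e := LinearEquiv.ofBijective T ⟨hinj, hsurj⟩ with he
  have he_apply : ∀ x, e x = T x := fun x => rfl
  refine ⟨e.toContinuousLinearEquivOfBounds C' (1 / c) (fun x => hTupper x) (fun y => ?_),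
    fun x => rfl⟩
  have h1 := hTlower (e.symm y)
  rw [← he_apply, LinearEquiv.apply_symm_apply] at h1
  rw [div_mul_eq_mul_div, one_mul, le_div_iff₀ hc]
  linarith


/-- A linear map at sublinear distance (at infinity) from a Lipschitz isomorphism of a Banach
space onto a normed space is a linear isomorphism. -/
theorem linear_iso_of_lipschitz_iso_asymptotically_linear [CompleteSpace X]
    (f : X → Y) (K K' : NNReal) (hf : LipschitzWith K f) (hf' : AntilipschitzWith K' f)
    (hsurj : Function.Surjective f) (T : X →ₗ[ℝ] Y)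
    (hT : (fun x => f x - T x) =o[cobounded X] (fun x => x)) :
    ∃ e : X ≃L[ℝ] Y, ∀ x, e x = T x := by
  refine linear_iso_of_asymptotically_linear f T (1 / ((K' : ℝ) + 1)) K 0 (by positivity)
    (fun x y => ?_) (fun x y => ?_) (fun y => ?_) hT
  · have := hf.dist_le_mul x y
    rw [dist_eq_norm, dist_eq_norm] at this
    linarith
  · have h1 := hf'.le_mul_dist x y
    rw [dist_eq_norm, dist_eq_norm] at h1
    have h2 : (0 : ℝ) ≤ K' := K'.coe_nonneg
    have h3 : ‖x - y‖ ≤ ((K' : ℝ) + 1) * ‖f x - f y‖ := by nlinarith [norm_nonneg (f x - f y)]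
    rw [sub_zero, div_mul_eq_mul_div, one_mul, div_le_iff₀ (by positivity)]
    linarith
  · obtain ⟨x, rfl⟩ := hsurj y
    exact ⟨x, by simp⟩

end Vale.Agent.Lib.P124
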